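import Vale.Agent.P144U.Defs
import Vale.Agent.P144E.An1.Hol

/-!
Hölder decay of a pair along a slit, by a logarithmic barrier.
-/

namespace Vale.Agent.P144Z

open Finset An1

namespace HlU

/-- The profile of the barrier. -/
noncomputable def pf (r : ℝ) : ℝ := Real.log r - 1 / r

theorem pf_sup {X Y : ℝ} (h : 5 ≤ X ^ 2 + Y ^ 2) :
    pf ((X + 1) ^ 2 + Y ^ 2) + pf (X ^ 2 + (Y + 1) ^ 2) + pf ((X - 1) ^ 2 + Y ^ 2) +
      pf (X ^ 2 + (Y - 1) ^ 2) ≤ 4 * pf (X ^ 2 + Y ^ 2) := by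
  obtain ⟨r, hr⟩ : ∃ r, r = X ^ 2 + Y ^ 2 := ⟨_, rfl⟩
  obtain ⟨a, ha⟩ : ∃ a, a = (X + 1) ^ 2 + Y ^ 2 := ⟨_, rfl⟩
  obtain ⟨b, hb⟩ : ∃ b, b = X ^ 2 + (Y + 1) ^ 2 := ⟨_, rfl⟩
  obtain ⟨c, hc⟩ : ∃ c, c = (X - 1) ^ 2 + Y ^ 2 := ⟨_, rfl⟩
  obtain ⟨d, hd⟩ : ∃ d, d = X ^ 2 + (Y - 1) ^ 2 := ⟨_, rfl⟩
  have a0 : 0 < a := by nlinarith [sq_nonneg (X + 2), sq_nonneg Y]
  have b0 : 0 < b := by nlinarith [sq_nonneg (Y + 2), sq_nonneg X]
  have c0 : 0 < c := by nlinarith [sq_nonneg (X - 2), sq_nonneg Y]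
  have d0 : 0 < d := by nlinarith [sq_nonneg (Y - 2), sq_nonneg X]
  have e1 : a * c * (b * d) ≤ r ^ 4 + 3 * r ^ 2 := by
    have e : a * c * (b * d) = r ^ 4 + 2 * r ^ 2 + 1 - 4 * (X ^ 2 - Y ^ 2) ^ 2 := by
      rw [ha, hb, hc, hd, hr]
      ring
    nlinarith [sq_nonneg (X ^ 2 - Y ^ 2)]
  have e2 : a * c + b * d = 2 * (r ^ 2 + 1) := by
    rw [ha, hb, hc, hd, hr]
    ring
  have e3 : a + c = 2 * (r + 1) := by linarith
  have e4 : b + d = 2 * (r + 1) := by linarith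
  rw [← ha, ← hb, ← hc, ← hd, ← hr]
  rw [← hr] at h
  clear ha hb hc hd hr
  have r0 : 0 < r := by linarith
  have k1 := Real.log_le_sub_one_of_pos (show 0 < a * c * (b * d) / r ^ 4 by positivity)
  rw [Real.log_div (by positivity) (by positivity), Real.log_mul (by positivity) (by positivity),
    Real.log_mul a0.ne' c0.ne', Real.log_mul b0.ne' d0.ne', Real.log_pow] at k1
  have k2 : a * c * (b * d) / r ^ 4 - 1 ≤ 3 / r ^ 2 := by
    rw [sub_le_iff_le_add, div_le_iff₀ (by positivity)]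
    refine e1.trans (le_of_eq ?_)
    field_simp
    ring
  have k3 : 2 / (r ^ 2 + 1) ≤ 1 / (a * c) + 1 / (b * d) := by
    rw [div_add_div _ _ (by positivity) (by positivity), div_le_div_iff₀ (by positivity)
      (by positivity), show r ^ 2 + 1 = (a * c + b * d) / 2 by linarith]
    nlinarith [sq_nonneg (a * c - b * d)]
  have k4 : 1 / a + 1 / c = 2 * (r + 1) * (1 / (a * c)) := by
    rw [← e3]
    field_simp
    ring
  have k5 : 1 / b + 1 / d = 2 * (r + 1) * (1 / (b * d)) := by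
    rw [← e4]
    field_simp
    ring
  have k6 : 3 / r ^ 2 + 4 * (1 / r) ≤ 2 * (r + 1) * (2 / (r ^ 2 + 1)) := by
    rw [show 3 / r ^ 2 + 4 * (1 / r) = (3 + 4 * r) / r ^ 2 by field_simp, ← mul_div_assoc,
      div_le_div_iff₀ (by positivity) (by positivity)]
    nlinarith
  have k7 := mul_le_mul_of_nonneg_left k3 (show 0 ≤ 2 * (r + 1) by positivity)
  unfold pf
  push_cast at k1
  linarith

/-- The barrier of one point. -/
noncomputable def ph (x v : ℤ × ℤ) : ℝ := pf (((v.1 : ℝ) - x.1) ^ 2 + ((v.2 : ℝ) - x.2) ^ 2)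

theorem ph_sup {x v : ℤ × ℤ} (h : 3 ≤ zd v x) : ∑ a, (ph x (v + st4 a) - ph x v) ≤ 0 := by
  have k := pf_sup (X := (v.1 : ℝ) - x.1) (Y := (v.2 : ℝ) - x.2)
    (le_trans (by norm_num) (dist_ge h))
  have e : ∀ (a : Fin 4) (p q : ℝ), ((v + st4 a).1 : ℝ) - x.1 = p → ((v + st4 a).2 : ℝ) - x.2 = q →
      ph x (v + st4 a) = pf (p ^ 2 + q ^ 2) := fun a p q hp hq => by rw [ph, hp, hq]
  rw [Fin.sum_univ_four, e 0 ((v.1 : ℝ) - x.1 + 1) ((v.2 : ℝ) - x.2) (by simp [st4]; ring)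
      (by simp [st4]), e 1 ((v.1 : ℝ) - x.1) ((v.2 : ℝ) - x.2 + 1) (by simp [st4])
      (by simp [st4]; ring), e 2 ((v.1 : ℝ) - x.1 - 1) ((v.2 : ℝ) - x.2) (by simp [st4]; ring)
      (by simp [st4]), e 3 ((v.1 : ℝ) - x.1) ((v.2 : ℝ) - x.2 - 1) (by simp [st4])
      (by simp [st4]; ring), ph]
  linarith

theorem ph_ge {x v : ℤ × ℤ} {m : ℕ} (h1 : 1 ≤ m) (h : m ≤ zd v x) :
    2 * Real.log m - 1 ≤ ph x v := by
  have h2 := dist_ge h
  have h3 : (1 : ℝ) ≤ (m : ℝ) ^ 2 := one_le_pow₀ (by exact_mod_cast h1)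
  have h4 := Real.log_le_log (by linarith) h2
  have h5 := (div_le_one (by linarith)).2 (h3.trans h2)
  rw [Real.log_pow] at h4
  push_cast at h4
  unfold ph pf
  linarith

theorem ph_le {x v : ℤ × ℤ} {m : ℕ} (h1 : 1 ≤ m) (h : zd v x ≤ 3 * m) :
    ph x v ≤ Real.log 18 + 2 * Real.log m := by
  have h2 := dist_le h
  have h3 : (1 : ℝ) ≤ m := by exact_mod_cast h1
  have h4 : Real.log (18 * (m : ℝ) ^ 2) = Real.log 18 + 2 * Real.log m := by
    rw [Real.log_mul (by norm_num) (by positivity), Real.log_pow]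
    norm_num
  push_cast at h2
  rw [← h4]
  unfold ph pf
  generalize hr : ((v.1 : ℝ) - x.1) ^ 2 + ((v.2 : ℝ) - x.2) ^ 2 = r at h2
  have h5 : 0 ≤ r := by
    rw [← hr]
    positivity
  refine (sub_le_self _ (by positivity)).trans ?_
  rcases h5.eq_or_lt with e | e
  · rw [← e, Real.log_zero]
    exact Real.log_nonneg (by nlinarith)
  · exact Real.log_le_log e (by linarith)

theorem ph_ge' {x v : ℤ × ℤ} {N : ℕ} {d : ℝ} (h0 : 0 ≤ d) (h : d ≤ zd v x + N) :
    2 * (Real.log (d + 1) - Real.log (N + 2)) - 1 ≤ ph x v := by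
  have hN : (0 : ℝ) ≤ N := N.cast_nonneg
  rcases Nat.eq_zero_or_pos (zd v x) with e | e
  · have h1 := dist_le e.le
    have h2 : ((v.1 : ℝ) - x.1) ^ 2 + ((v.2 : ℝ) - x.2) ^ 2 = 0 :=
      le_antisymm (by simpa using h1) (by positivity)
    have h3 := Real.log_le_log (by linarith) (show d + 1 ≤ N + 2 by
      rw [e] at h
      push_cast at h
      linarith)
    rw [ph, h2, pf, Real.log_zero, div_zero]
    linarith
  · have h1 : (1 : ℝ) ≤ zd v x := by exact_mod_cast e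
    have h3 := Real.log_le_log (by linarith) (show d + 1 ≤ zd v x * (N + 2) by nlinarith)
    rw [Real.log_mul (by positivity) (by positivity)] at h3
    linarith [ph_ge e le_rfl]

theorem sum_log (n : ℕ) : ∀ t : ℝ,
    n * Real.log n - 2 * n ≤ ∑ i ∈ range n, Real.log (|t - i| + 1) := by
  induction n with
  | zero => simp
  | succ n ih =>
    intro t
    have hn : (0 : ℝ) ≤ n := n.cast_nonneg
    have k1 : (n : ℝ) * Real.log (n + 1) ≤ n * Real.log n + 1 := by
      rcases hn.eq_or_lt with e | e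
      · rw [← e]
        simp
      · have k := Real.log_le_sub_one_of_pos (show 0 < ((n : ℝ) + 1) / n by positivity)
        rw [Real.log_div (by positivity) e.ne', add_div, div_self e.ne', add_sub_cancel_left,
          le_div_iff₀ e] at k
        linarith
    have k2 : ∀ y : ℝ, n ≤ 2 * y → Real.log (n + 1) - 1 ≤ Real.log (y + 1) := fun y hy => by
      have k := Real.log_le_log (by positivity) (show (n : ℝ) + 1 ≤ 2 * (y + 1) by linarith)
      rw [Real.log_mul (by norm_num) (by linarith)] at k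
      linarith [Real.log_two_lt_d9]
    push_cast
    by_cases h : (n : ℝ) ≤ 2 * t
    · have k3 := k2 |t - (0 : ℕ)| (by simpa using h.trans (by linarith [le_abs_self t]))
      have k4 := ih (t - 1)
      rw [sum_range_succ']
      simp only [Nat.cast_add, Nat.cast_one, ← sub_sub, sub_right_comm t _ 1]
      linarith
    · have k3 := k2 |t - n| (by linarith [neg_le_abs (t - n)])
      rw [sum_range_succ]
      linarith [ih t]

theorem log_18 : 2 ≤ Real.log 18 := by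
  have h := Real.log_le_log (by norm_num) (show (2 : ℝ) ^ 4 ≤ 18 by norm_num)
  rw [Real.log_pow] at h
  push_cast at h
  linarith [Real.log_two_gt_d9]

/-- The oscillation of the barrier. -/
noncomputable def D (N : ℕ) : ℝ := 2 * Real.log 18 + 4 + 2 * Real.log (N + 2)

theorem D_ge (N : ℕ) : 1 ≤ D N := by
  have := Real.log_nonneg (show (1 : ℝ) ≤ N + 2 by linarith [N.cast_nonneg (α := ℝ)])
  unfold D
  linarith [log_18]

/-- One step. -/
theorem step {N ρ n : ℕ} {g : ℤ × ℤ → ℝ} {S : ℝ} (hg : Sub ρ g) (hn : N + 1 ≤ n)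
    (hρ : 20 * n ≤ ρ) (hS0 : 0 ≤ S) (hout : ∀ i, i + N ≤ ρ → ∃ x, i ≤ zd x 0 + N ∧
      zd x 0 ≤ i + N ∧ ∀ v, zd v 0 + 1 ≤ ρ → zd v x ≤ 2 → g v ≤ 0)
    (hS : ∀ v, zd v 0 ≤ 20 * n → g v ≤ S) :
    ∀ v, zd v 0 ≤ n → g v ≤ (1 - 1 / (4 * D N)) * S := by
  choose! x x1 x2 x3 using hout
  have hi : ∀ i ∈ range n, i + N ≤ ρ ∧ i < n := fun i hi => by
    have := mem_range.1 hi
    omega
  have tri : ∀ a b : ℤ × ℤ, zd a 0 ≤ zd a b + zd b 0 ∧ zd b 0 ≤ zd a b + zd a 0 ∧
      zd a b ≤ zd a 0 + zd b 0 := fun a b => by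
    simp only [zd, Prod.fst_zero, Prod.snd_zero, sub_zero]
    omega
  have n1 : (1 : ℝ) ≤ n := by exact_mod_cast (by omega : 1 ≤ n)
  have hD := D_ge N
  obtain ⟨c, hc⟩ : ∃ c : ℝ, c = S / (4 * D N * n) := ⟨_, rfl⟩
  have c0 : 0 ≤ c := by
    rw [hc]
    positivity
  have c1 : c * (n * D N) = S / 4 := by
    rw [hc]
    field_simp
  obtain ⟨A, hA⟩ : ∃ A : ℝ, A = n * (2 * (Real.log 18 + Real.log n) - 1) := ⟨_, rfl⟩
  let B : ℤ × ℤ → ℝ := fun v => S - c * (A - ∑ i ∈ range n, ph (x i) v)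
  have hB : ∀ v, 3 / 4 * S ≤ B v := fun v => by
    have k1 := sum_le_sum fun i (h : i ∈ range n) =>
      ph_ge' (x := x i) (v := v) (N := N) (abs_nonneg ((zd v 0 : ℝ) - i)) (by
        obtain ⟨a1, a2, _⟩ := tri v (x i)
        have a3 := x1 i (hi i h).1
        have a4 := x2 i (hi i h).1
        rw [abs_le]
        constructor
        · have : (i : ℝ) ≤ zd v (x i) + zd v 0 + N := by exact_mod_cast (by omega)
          linarith
        · have : (zd v 0 : ℝ) ≤ zd v (x i) + i + N := by exact_mod_cast (by omega)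
          linarith)
    simp only [sum_sub_distrib, ← mul_sum, sum_const, card_range, nsmul_eq_mul] at k1
    have k2 : A - ∑ i ∈ range n, ph (x i) v ≤ n * D N := by
      rw [hA, D]
      linarith [sum_log n (zd v 0)]
    have k3 := mul_le_mul_of_nonneg_left k2 c0
    simp only [B]
    linarith
  have key := maxp_box (20 * n) (fun v => g v - B v) (fun v hv => by
    have k1 := sum_le_sum fun i (h : i ∈ range n) =>
      ph_ge (x := x i) (v := v) (m := 18 * n) (by omega) (by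
        have a1 := (tri v (x i)).1
        have a4 := x2 i (hi i h).1
        have := (hi i h).2
        omega)
    rw [sum_const, card_range, nsmul_eq_mul, Nat.cast_mul, Nat.cast_ofNat,
      Real.log_mul (by norm_num) (by linarith), ← hA] at k1
    have k2 := mul_nonneg c0 (sub_nonneg.2 k1)
    have k3 := hS v hv.le
    simp only [B]
    linarith) (fun v hv h1 h2 => by
    have h3 : 0 < g v := by linarith [hB v]
    obtain ⟨G, h5, h6⟩ := hg v (hv.trans hρ) h3
    have h7 : ∀ a, -(1 / 2) * g v < B (v + st4 a) - B v := fun a => by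
      linarith [hB (v + st4 a), hS v (by omega)]
    have h8 : ∑ a, (B (v + st4 a) - B v) ≤ 0 := by
      have k1 := mul_nonpos_of_nonneg_of_nonpos c0 (sum_nonpos fun i (h : i ∈ range n) =>
        ph_sup (x := x i) (v := v) (not_le.1 fun k =>
          absurd (x3 i (hi i h).1 v (hv.trans hρ) k) (not_le.2 h3)))
      simp only [B, Fin.sum_univ_four, sum_add_distrib, sum_sub_distrib] at k1 ⊢
      linarith
    have h9 := B1a1.four_zero (g := fun a => G a - (B (v + st4 a) - B v)) (fun a => by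
      rcases h6 a with k | k
      · linarith [h2 a]
      · linarith [h7 a]) (by rw [Finset.sum_sub_distrib]; linarith) 0
    rcases h6 0 with k | k
    · linarith
    · linarith [h7 0])
  intro v hv
  have h1 := key v (by omega)
  have k1 := sum_le_sum fun i (h : i ∈ range n) =>
    ph_le (x := x i) (v := v) (m := n) (by omega) (by
      have a1 := (tri v (x i)).2.2
      have a4 := x2 i (hi i h).1
      have := (hi i h).2
      omega)
  rw [sum_const, card_range, nsmul_eq_mul] at k1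
  have k2 : (n : ℝ) ≤ A - ∑ i ∈ range n, ph (x i) v := by
    rw [hA]
    nlinarith [log_18]
  have k3 := mul_le_mul_of_nonneg_left k2 c0
  have k4 : c * n = 1 / (4 * D N) * S := by
    rw [hc]
    field_simp
  simp only [B] at h1
  linarith

/-- The decay of one function. -/
theorem decay (N : ℕ) : ∃ C β : ℝ, 1 ≤ C ∧ 0 < β ∧ β ≤ 1 / 2 ∧ ∀ (ρ : ℕ) (g : ℤ × ℤ → ℝ) (S : ℝ),
    Sub ρ g → 0 ≤ S → (∀ i, i + N ≤ ρ → ∃ x, i ≤ zd x 0 + N ∧ zd x 0 ≤ i + N ∧
      ∀ v, zd v 0 + 1 ≤ ρ → zd v x ≤ 2 → g v ≤ 0) → (∀ v, zd v 0 ≤ ρ → g v ≤ S) →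
    ∀ s : ℕ, 1 ≤ s → ∀ v, zd v 0 ≤ s → s ≤ ρ → g v ≤ C * S * ((s : ℝ) / ρ) ^ β := by
  obtain ⟨θ, hθ⟩ : ∃ θ, θ = 1 - 1 / (4 * D N) := ⟨_, rfl⟩
  have hD := D_ge N
  have t0 : 0 < θ := by
    rw [hθ, sub_pos, div_lt_one (by linarith)]
    linarith
  have t1 : θ < 1 := hθ ▸ sub_lt_self _ (by positivity)
  obtain ⟨β, b0, b1, hβ⟩ := exists_exp t0 t1 (show (1 : ℝ) < 20 by norm_num)
  refine ⟨(θ ^ (N + 1))⁻¹, β, (one_le_inv₀ (by positivity)).2 (pow_le_one₀ t0.le t1.le), b0, b1,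
    fun ρ g S hg hS0 hout hS s hs v hv hsρ => ?_⟩
  have it : ∀ k n, N + 1 ≤ n → 20 ^ k * n ≤ ρ → ∀ v, zd v 0 ≤ n → g v ≤ θ ^ k * S := fun k => by
    induction k with
    | zero => exact fun n _ h v hv => by simpa using hS v (by omega)
    | succ k ih =>
      intro n hn h
      rw [pow_succ', mul_assoc, hθ]
      rw [pow_succ, mul_assoc] at h
      exact step hg hn (le_trans (Nat.le_mul_of_pos_left _ (by positivity)) h)
        (by rw [← hθ]; positivity) hout (hθ ▸ ih _ (by omega) h)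
  have hs' : N + 1 ≤ (N + 1) * s := Nat.le_mul_of_pos_right _ hs
  have hex : ∃ k, ρ < 20 ^ (k + 1) * ((N + 1) * s) :=
    ⟨ρ, lt_of_lt_of_le ((Nat.lt_succ_self ρ).trans (Nat.lt_pow_self (by omega)))
      (Nat.le_mul_of_pos_right _ (by omega))⟩
  obtain ⟨k, h1, h2⟩ : ∃ k, ρ < 20 ^ (k + 1) * ((N + 1) * s) ∧ g v ≤ θ ^ k * S := by
    refine ⟨Nat.find hex, Nat.find_spec hex, ?_⟩
    rcases Nat.eq_zero_or_eq_succ_pred (Nat.find hex) with h | h
    · rw [h, pow_zero, one_mul]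
      exact hS v (hv.trans hsρ)
    · have h3 := Nat.find_min hex (m := (Nat.find hex).pred) (by omega)
      rw [h]
      exact it _ _ hs' (not_lt.1 h3) v (hv.trans (Nat.le_mul_of_pos_left _ (by omega)))
  have hρ : (0 : ℝ) < ρ := by exact_mod_cast (by omega : 0 < ρ)
  have h3 : (20 : ℝ)⁻¹ ^ (k + 1 + N) ≤ (s : ℝ) / ρ := by
    have h4 : ρ ≤ s * 20 ^ (k + 1 + N) := by
      rw [pow_add, mul_comm s, mul_assoc]
      exact h1.le.trans (Nat.mul_le_mul_left _ (Nat.mul_le_mul_right _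
        (Nat.lt_pow_self (by omega))))
    rw [inv_pow, inv_eq_one_div, div_le_div_iff₀ (by positivity) hρ, one_mul]
    exact_mod_cast h4
  have h4 := mul_le_mul_of_nonneg_left (hβ _ _ h3)
    (show 0 ≤ (θ ^ (N + 1))⁻¹ * S by positivity)
  refine h2.trans (le_trans (le_of_eq ?_) h4)
  field_simp
  ring

end HlU

open PairDecay in
/-- Hölder decay of a pair along a slit. -/
theorem holU : HolU := by
  intro N
  obtain ⟨C, β, hC, b0, b1, H⟩ := HlU.decay N
  refine ⟨C, β, hC, b0, b1, fun ρ u w pr out h S hout hS s hs v hv hsρ => ?_⟩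
  have hS0 : 0 ≤ S := (abs_nonneg _).trans (hS 0 (by simp [zd])).1
  have h0 : ∀ y a, 0 < u y → ¬ pr y a → GG u pr y a ≤ -(1 / 2) * u y := fun y a hp ha => by
    rw [GG, if_neg ha]
    nlinarith [tc_ge]
  have h1 := H ρ u S (fun y hy hp => ⟨GG u pr y, h.sub y hy, fun a => by
      by_cases ha : pr y a
      · exact Or.inl (by rw [GG, if_pos ha])
      · exact Or.inr (h0 y a hp ha)⟩) hS0
    (fun t ht => (hout t ht).imp fun x hx => ⟨hx.1, hx.2.1, fun y hy hy' => not_lt.1 fun hp => by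
      have h4 := Finset.sum_le_sum fun a (_ : a ∈ univ) => h0 y a hp ((hx.2.2 y hy').2 a)
      have h5 := h.sub y hy
      simp only [Fin.sum_univ_four] at h4 h5
      linarith⟩) (fun y hy => (le_abs_self _).trans (hS y hy).1) s hs v hv hsρ
  have h2 := H ρ (fun y => -w y) S (fun y hy hp => by
      have h3 : ¬ out y := fun h4 => by
        have h5 := h.zero y (by omega) h4
        simp only [h5, neg_zero] at hp
        exact lt_irrefl _ hp
      refine ⟨fun a => -w (y + st4 a) - -w y, ?_, fun a => Or.inl le_rfl⟩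
      have h5 := h.sup y hy h3
      simp only [Fin.sum_univ_four] at h5 ⊢
      linarith) hS0
    (fun t ht => (hout t ht).imp fun x hx => ⟨hx.1, hx.2.1, fun y hy hy' => by
      rw [h.zero y (by omega) (hx.2.2 y hy').1, neg_zero]⟩)
    (fun y hy => (neg_le_abs _).trans (hS y hy).2) s hs v hv hsρ
  have h3 : w v ≤ u v := by
    have h4 := h.le v 0 (by omega)
    rwa [B1a1.sub_cn_zero] at h4
  exact ⟨abs_le.2 ⟨by linarith, h1⟩, abs_le.2 ⟨by linarith, by linarith⟩⟩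

end Vale.Agent.P144Z
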